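import Vale.Agent.Lib.P321.Sim

/-!
# P321: the sample complexity of trace reconstruction is monotone in `q` and in `n`
-/

namespace Vale.Agent.Results.P321.Monotone

open Vale.Agent.Lib.P321
open scoped ENNReal NNReal

lemma suffices_mono_p {p p' : ℝ≥0} (hp : p ≤ 1) (hp' : p' ≤ 1) (h : p' ≤ p) {n m : ℕ}
    (H : Suffices p' hp' n m) : Suffices p hp n m := by
  have hs : p' / p ≤ 1 := div_le_one_of_le₀ h zero_le
  have hps : p * (p' / p) = p' := by
    by_cases h0 : p = 0
    · subst h0
      simpa using (le_antisymm h zero_le).symm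
    · field_simp
  have hps1 : p * (p' / p) ≤ 1 := by rw [hps]; exact hp'
  refine suffices_of_sim (p := p) (p' := p') (hp := hp) (hp' := hp') (n := n) (n' := n)
    (trace (p' / p) hs) id id (fun x hx => hx) (fun x => rfl) (fun x => ?_) H
  rw [trace_bind_trace p (p' / p) hp hs hps1]
  simp only [hps, id]

lemma suffices_succ {p : ℝ≥0} (hp : p ≤ 1) {n m : ℕ}
    (H : Suffices p hp (n + 1) m) : Suffices p hp n m :=
  suffices_of_sim (p := p) (p' := p) (hp := hp) (hp' := hp) (n := n) (n' := n + 1)
    (fun t => (coin p hp).map fun k => if k then false :: t else t)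
    (fun x => false :: x) List.tail (fun x hx => by simp [hx]) (fun x => rfl)
    (fun x => trace_cons p hp false x) H

lemma suffices_mono_n {p : ℝ≥0} (hp : p ≤ 1) {n n' m : ℕ} (hn : n ≤ n')
    (H : Suffices p hp n' m) : Suffices p hp n m := by
  induction n', hn using Nat.le_induction with
  | base => exact H
  | succ k _ ih => exact ih (suffices_succ hp H)

/-- **Monotonicity of the sample complexity.**  With `p = 1 - q` the retention probability:
if `p' ≤ p` (that is `q ≤ q'`) and `n ≤ n'` then `T_q(n) ≤ T_{q'}(n')`. -/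
theorem result (p p' : ℝ≥0) (hp : p ≤ 1) (hp' : p' ≤ 1) (h : p' ≤ p) (n n' : ℕ) (hn : n ≤ n') :
    T p hp n ≤ T p' hp' n' := by
  unfold T
  refine le_iInf₂ fun m hm => ?_
  exact iInf₂_le m (suffices_mono_p hp hp' h (suffices_mono_n hp' hn hm))

end Vale.Agent.Results.P321.Monotone
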